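import Vale.Agent.P216.H787.Cls

/-!
# P216-B7, row Z4: gluing a class along a period (pigeonhole), list cochains

`Y` (the infinite cyclic cover) carries isometries `T m` (`m : ℤ`) and `f : Y → ℝ` with
`f (T m y) = f y + m`.  A list cocycle on a long slab whose restrictions to two translates of a slab
agree is cohomologous on the slab in between to a `T s`-invariant cocycle on all of `Y`.
-/

set_option linter.all false

open Set

namespace Vale.Agent.P216.H774B

open Vale.Agent.P216.Sl Vale.Agent.P216.PS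

variable {k : Type} [Field k] {Y : Type}

/-- The slab `a ≤ f ≤ b`. -/
def Slab (f : Y → ℝ) (a b : ℝ) : Set Y := {y | a ≤ f y ∧ f y ≤ b}

theorem Slab.mono {f : Y → ℝ} {a b a' b' : ℝ} (h1 : a' ≤ a) (h2 : b ≤ b') :
    Slab f a b ⊆ Slab f a' b' := fun y hy => ⟨h1.trans hy.1, hy.2.trans h2⟩

open Classical in
/-- The cut-off of a list cochain. -/
noncomputable def chi (f : Y → ℝ) (c : ℝ) (g : List Y → k) (l : List Y) : k :=
  if ∃ x, l.head? = some x ∧ f x < c then g l else 0

theorem chi_cons_pos {f : Y → ℝ} {c : ℝ} {g : List Y → k} {x : Y} {l : List Y} (h : f x < c) :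
    chi f c g (x :: l) = g (x :: l) := by
  rw [chi, if_pos ⟨x, rfl, h⟩]

theorem chi_cons_neg {f : Y → ℝ} {c : ℝ} {g : List Y → k} {x : Y} {l : List Y} (h : c ≤ f x) :
    chi f c g (x :: l) = 0 := by
  rw [chi, if_neg]
  rintro ⟨y, hy, h'⟩
  rw [List.head?_cons, Option.some.injEq] at hy
  subst hy
  linarith

/-- The glued cochain. -/
noncomputable def gl (T : ℤ → Y → Y) (f : Y → ℝ) (c : ℝ) (s : ℤ) (w : List Y → k) :
    List Y → k
  | [] => 0
  | x :: l => w ((x :: l).map (T (-(s * ⌊(f x - c) / s⌋))))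

variable {T : ℤ → Y → Y} {f : Y → ℝ}

theorem T_neg (hT0 : ∀ y, T 0 y = y) (hTa : ∀ m n y, T (m + n) y = T m (T n y)) (m : ℤ) (y : Y) :
    T m (T (-m) y) = y := by rw [← hTa, add_neg_cancel, hT0]

theorem map_map_T (hTa : ∀ m n y, T (m + n) y = T m (T n y)) (m n : ℤ) (l : List Y) :
    (l.map (T n)).map (T m) = l.map (T (m + n)) := by
  rw [List.map_map]
  exact List.map_congr_left fun y _ => (hTa m n y).symm

theorem map_T_zero (hT0 : ∀ y, T 0 y = y) (l : List Y) : l.map (T 0) = l := by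
  conv_rhs => rw [← List.map_id l]
  exact List.map_congr_left fun y _ => hT0 y

theorem gl_inv (hTa : ∀ m n y, T (m + n) y = T m (T n y)) (hf : ∀ m y, f (T m y) = f y + m)
    {c : ℝ} {s : ℤ} (hs : 0 < s) (w : List Y → k) (m : ℤ) (l : List Y) :
    gl T f c s w (l.map (T (s * m))) = gl T f c s w l := by
  rcases l with _ | ⟨x, l⟩
  · rfl
  have hs' : (s : ℝ) ≠ 0 := by exact_mod_cast hs.ne'
  have h1 : ⌊(f (T (s * m) x) - c) / s⌋ = ⌊(f x - c) / s⌋ + m := by
    rw [hf, ← Int.floor_add_intCast]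
    congr 1
    push_cast
    field_simp
    ring
  show w ((T (s * m) x :: l.map (T (s * m))).map (T (-(s * ⌊(f (T (s * m) x) - c) / s⌋)))) =
    w ((x :: l).map (T (-(s * ⌊(f x - c) / s⌋))))
  rw [h1, ← List.map_cons, map_map_T hTa]
  congr 3
  ring

variable [PseudoMetricSpace Y]

theorem smL_map (hTd : ∀ m x y, dist (T m x) (T m y) = dist x y) {ε : ℝ} {l : List Y}
    (h : ∀ x ∈ l, ∀ y ∈ l, dist x y < ε) (m : ℤ) :
    ∀ x ∈ l.map (T m), ∀ y ∈ l.map (T m), dist x y < ε := by
  intro x' hx' y' hy'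
  obtain ⟨x, hx, rfl⟩ := List.mem_map.1 hx'
  obtain ⟨y, hy, rfl⟩ := List.mem_map.1 hy'
  rw [hTd]
  exact h x hx y hy

theorem dl_sub_fun (g h : List Y → k) (l : List Y) :
    dl (fun l => g l - h l) l = dl g l - dl h l := by
  have := PS.dl_add g (fun l => -h l) l
  rw [PS.dl_neg] at this
  simpa only [sub_eq_add_neg] using this

/-- **The glue lemma.** -/
theorem glue (hT0 : ∀ y, T 0 y = y) (hTa : ∀ m n y, T (m + n) y = T m (T n y))
    (hTd : ∀ m x y, dist (T m x) (T m y) = dist x y) (hf : ∀ m y, f (T m y) = f y + m)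
    (hfu : ∀ η > 0, ∃ ε > 0, ∀ x y, dist x y < ε → |f x - f y| < η)
    {n : ℕ} (hn : 1 ≤ n) {a b : ℝ} (hab : a < b) {s : ℤ} (hs : b - a < s) {v : List Y → k}
    (hv : CocL (Slab f a (b + s)) n v)
    (he : ExL (Slab f a b) n (fun l => v l - v (l.map (T s)))) :
    ∃ U : List Y → k, CocL univ n U ∧ (∀ (m : ℤ) (l), U (l.map (T (s * m))) = U l) ∧
      ExL (Slab f a (a + s)) n (fun l => U l - v l) := by
  obtain ⟨g, -, ε₁, hε₁, hg⟩ := he
  obtain ⟨ε₂, hε₂, hv⟩ := hv
  obtain ⟨ε₃, hε₃, hfε⟩ := hfu ((b - a) / 8) (by linarith)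
  have hs0 : (0 : ℝ) < s := by linarith
  have hs0' : (0 : ℤ) < s := by exact_mod_cast hs0
  set ε := min ε₁ (min ε₂ ε₃) with hε
  have hεpos : 0 < ε := lt_min hε₁ (lt_min hε₂ hε₃)
  have hle1 : ε ≤ ε₁ := min_le_left _ _
  have hle2 : ε ≤ ε₂ := (min_le_right _ _).trans (min_le_left _ _)
  have hle3 : ε ≤ ε₃ := (min_le_right _ _).trans (min_le_right _ _)
  set c := a + (b - a) / 4 with hc
  set c2 := a + (b - a) / 2 with hc2
  set w : List Y → k := fun l => v l - dl (chi f c2 g) l with hw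
  -- (A)
  have hA : ∀ l : List Y, l.length = n + 1 → (∀ x ∈ l, a ≤ f x ∧ f x < c2) →
      (∀ x ∈ l, ∀ y ∈ l, dist x y < ε) → w (l.map (T s)) = w l := by
    intro l hl h1 h2
    have e1 : dl (chi f c2 g) l = dl g l := by
      refine Sl.dl_congr fun l' hl' hm => ?_
      rcases l' with _ | ⟨y, l'⟩
      · simp only [List.length_nil] at hl'; omega
      · exact chi_cons_pos (h1 y (hm y List.mem_cons_self)).2
    have e2 : dl (chi f c2 g) (l.map (T s)) = 0 := by
      have : dl (chi f c2 g) (l.map (T s)) = dl (fun _ : List Y => (0 : k)) (l.map (T s)) := by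
        refine Sl.dl_congr fun l' hl' hm => ?_
        rcases l' with _ | ⟨y, l'⟩
        · simp only [List.length_nil, List.length_map] at hl'; omega
        · obtain ⟨x, hx, rfl⟩ := List.mem_map.1 (hm y List.mem_cons_self)
          refine chi_cons_neg ?_
          rw [hf]
          have := (h1 x hx).1
          linarith
      rw [this, PS.dl_zero_fun]
    have e3 := hg l hl ⟨fun x hx => ⟨(h1 x hx).1, by have := (h1 x hx).2; linarith⟩,
      fun x hx y hy => (h2 x hx y hy).trans_le hle1⟩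
    simp only [hw]
    rw [e1, e2, ← e3]
    ring
  -- (B)
  have hB : ∀ (x : Y) (l : List Y), (x :: l).length = n + 1 → (∀ y ∈ x :: l, a ≤ f y) →
      f x < c + s + (b - a) / 8 → (∀ y ∈ x :: l, ∀ z ∈ x :: l, dist y z < ε) →
      gl T f c s w (x :: l) = w (x :: l) := by
    intro x l hl h1 h2 h3
    have hclose : ∀ y ∈ x :: l, |f y - f x| < (b - a) / 8 := fun y hy =>
      hfε y x ((h3 y hy x List.mem_cons_self).trans_le hle3)
    have hx := h1 x List.mem_cons_self
    show w ((x :: l).map (T (-(s * ⌊(f x - c) / s⌋)))) = w (x :: l)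
    rcases lt_or_ge (f x) c with hxc | hxc
    · have hfl : ⌊(f x - c) / s⌋ = -1 := by
        rw [Int.floor_eq_iff]
        constructor
        · rw [le_div_iff₀ hs0]
          push_cast
          linarith
        · rw [div_lt_iff₀ hs0]
          push_cast
          linarith
      rw [hfl, show -(s * -1) = s by ring]
      refine hA _ hl (fun y hy => ⟨h1 y hy, ?_⟩) h3
      have := (abs_lt.1 (hclose y hy)).2
      linarith
    · rcases lt_or_ge (f x) (c + s) with hxs | hxs
      · have hfl : ⌊(f x - c) / s⌋ = 0 := by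
          rw [Int.floor_eq_iff]
          constructor
          · push_cast
            exact div_nonneg (by linarith) hs0.le
          · rw [div_lt_iff₀ hs0]
            push_cast
            linarith
        rw [hfl, show -(s * 0) = 0 by ring, map_T_zero hT0]
      · have hfl : ⌊(f x - c) / s⌋ = 1 := by
          rw [Int.floor_eq_iff]
          constructor
          · rw [le_div_iff₀ hs0]
            push_cast
            linarith
          · rw [div_lt_iff₀ hs0]
            push_cast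
            linarith
        rw [hfl, show -(s * 1) = -s by ring]
        have := hA ((x :: l).map (T (-s))) (by rw [List.length_map]; exact hl) ?_ ?_
        · rw [← this, map_map_T hTa, add_neg_cancel, map_T_zero hT0]
        · intro y' hy'
          obtain ⟨y, hy, rfl⟩ := List.mem_map.1 hy'
          rw [hf]
          push_cast
          have := abs_lt.1 (hclose y hy)
          constructor <;> linarith [this.1, this.2]
        · exact smL_map hTd h3 _
  refine ⟨gl T f c s w, ⟨ε, hεpos, ?_⟩, fun m l => gl_inv hTa hf hs0' w m l, ?_⟩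
  · intro l hl hsm
    rcases l with _ | ⟨x, l⟩
    · simp only [List.length_nil] at hl; omega
    set m := ⌊(f x - c) / s⌋ with hm
    have hinv : dl (gl T f c s w) (x :: l) =
        dl (gl T f c s w) ((x :: l).map (T (s * (-m)))) := by
      rw [← Sl.dl_map]
      exact Sl.dl_congr fun l' _ _ => (gl_inv hTa hf hs0' w (-m) l').symm
    rw [hinv]
    set l2 := (x :: l).map (T (s * (-m))) with hl2
    have hd2 : ∀ y ∈ l2, ∀ z ∈ l2, dist y z < ε := smL_map hTd hsm.2 _
    have hx2 : c ≤ f (T (s * (-m)) x) ∧ f (T (s * (-m)) x) < c + s := by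
      have h1 := Int.floor_le ((f x - c) / s)
      have h2 := Int.lt_floor_add_one ((f x - c) / s)
      rw [← hm] at h1 h2
      rw [le_div_iff₀ hs0] at h1
      rw [div_lt_iff₀ hs0] at h2
      rw [hf]
      push_cast
      constructor <;> nlinarith
    have hmem : T (s * (-m)) x ∈ l2 := List.mem_map_of_mem List.mem_cons_self
    have hy2 : ∀ y ∈ l2, c - (b - a) / 8 < f y ∧ f y < c + s + (b - a) / 8 := by
      intro y hy
      have := abs_lt.1 (hfε y _ ((hd2 y hy _ hmem).trans_le hle3))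
      constructor <;> linarith [this.1, this.2, hx2.1, hx2.2]
    have h1 : dl (gl T f c s w) l2 = dl w l2 := by
      refine Sl.dl_congr fun l' hl' hm' => ?_
      rcases l' with _ | ⟨y, l'⟩
      · simp only [List.length_nil, hl2, List.length_map] at hl'; omega
      · refine hB y l' ?_ (fun z hz => ?_) (hy2 y (hm' y List.mem_cons_self)).2
          (fun z hz z' hz' => hd2 z (hm' z hz) z' (hm' z' hz'))
        · simp only [hl2, List.length_map] at hl'
          omega
        · have := (hy2 z (hm' z hz)).1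
          linarith
    rw [h1, hw, dl_sub_fun, Sl.dl_dl, sub_zero]
    refine hv l2 (by rw [hl2, List.length_map]; exact hl) ⟨fun y hy => ?_, fun y hy z hz =>
      (hd2 y hy z hz).trans_le hle2⟩
    have := hy2 y hy
    constructor <;> linarith [this.1, this.2]
  · refine ⟨fun l => -chi f c2 g l, fun h => absurd h (by omega), ε, hεpos, fun l hl hsm => ?_⟩
    rcases l with _ | ⟨x, l⟩
    · simp only [List.length_nil] at hl; omega
    have := (hsm.1 x List.mem_cons_self).2
    show gl T f c s w (x :: l) - v (x :: l) = _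
    rw [PS.dl_neg, hB x l hl (fun y hy => (hsm.1 y hy).1) (by linarith) hsm.2]
    simp only [hw]
    ring

theorem exL_sub {X : Set Y} {n : ℕ} {g h : List Y → k} (hg : ExL X n g) (hh : ExL X n h) :
    ExL X n (fun l => g l - h l) := by
  obtain ⟨g', hg0, ε₁, hε₁, hg⟩ := hg
  obtain ⟨h', hh0, ε₂, hε₂, hh⟩ := hh
  refine ⟨fun l => g' l - h' l, fun h0 l => by simp only [hg0 h0, hh0 h0, sub_zero],
    min ε₁ ε₂, lt_min hε₁ hε₂, fun l hl hs => ?_⟩
  rw [dl_sub_fun]
  show g l - h l = _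
  rw [hg l hl (hs.mono le_rfl (min_le_left _ _)), hh l hl (hs.mono le_rfl (min_le_right _ _))]

theorem smL_shift (hTd : ∀ m x y, dist (T m x) (T m y) = dist x y)
    (hf : ∀ m y, f (T m y) = f y + m) {a b ε : ℝ} {l : List Y} (m : ℤ)
    (h : SmL (Slab f a b) ε l) : SmL (Slab f (a + m) (b + m)) ε (l.map (T m)) := by
  refine ⟨fun x' hx' => ?_, smL_map hTd h.2 m⟩
  obtain ⟨x, hx, rfl⟩ := List.mem_map.1 hx'
  have := h.1 x hx
  show a + m ≤ f (T m x) ∧ f (T m x) ≤ b + m
  rw [hf]
  exact ⟨by linarith [this.1], by linarith [this.2]⟩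

theorem coc_pull (hTd : ∀ m x y, dist (T m x) (T m y) = dist x y)
    (hf : ∀ m y, f (T m y) = f y + m) {n : ℕ} {a b : ℝ} {v : List Y → k} (m : ℤ)
    (h : CocL (Slab f (a + m) (b + m)) n v) :
    CocL (Slab f a b) n (fun l => v (l.map (T m))) := by
  obtain ⟨ε, hε, h⟩ := h
  refine ⟨ε, hε, fun l hl hs => ?_⟩
  rw [Sl.dl_map]
  exact h _ (by rw [List.length_map]; exact hl) (smL_shift hTd hf m hs)

theorem ex_pull (hTd : ∀ m x y, dist (T m x) (T m y) = dist x y)
    (hf : ∀ m y, f (T m y) = f y + m) {n : ℕ} {a b : ℝ} {v : List Y → k} (m : ℤ)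
    (h : ExL (Slab f (a + m) (b + m)) n v) :
    ExL (Slab f a b) n (fun l => v (l.map (T m))) := by
  obtain ⟨g, hg, ε, hε, h⟩ := h
  refine ⟨fun l => g (l.map (T m)), fun h0 l => hg h0 _, ε, hε, fun l hl hs => ?_⟩
  rw [Sl.dl_map]
  exact h _ (by rw [List.length_map]; exact hl) (smL_shift hTd hf m hs)

theorem ex_push (hT0 : ∀ y, T 0 y = y) (hTa : ∀ m n y, T (m + n) y = T m (T n y))
    (hTd : ∀ m x y, dist (T m x) (T m y) = dist x y)
    (hf : ∀ m y, f (T m y) = f y + m) {n : ℕ} {a b : ℝ} {v : List Y → k} (m : ℤ)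
    (h : ExL (Slab f a b) n (fun l => v (l.map (T m)))) :
    ExL (Slab f (a + m) (b + m)) n v := by
  have e1 : Slab f a b = Slab f (a + m + ((-m : ℤ) : ℝ)) (b + m + ((-m : ℤ) : ℝ)) := by
    push_cast
    congr 1 <;> ring
  rw [e1] at h
  have := ex_pull hTd hf (-m) h
  simpa only [map_map_T hTa, add_neg_cancel, map_T_zero hT0] using this

/-- What the row produces. -/
def Out (T : ℤ → Y → Y) (f : Y → ℝ) (n : ℕ) (k : Type) [Field k] : Prop :=
  ∃ (s : ℤ) (U : List Y → k), 0 < s ∧ CocL (univ : Set Y) n U ∧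
    (∀ (m : ℤ) (l : List Y), U (l.map (T (s * m))) = U l) ∧ ∃ a b : ℝ, ¬ ExL (Slab f a b) n U

theorem step (hT0 : ∀ y, T 0 y = y) (hTa : ∀ m n y, T (m + n) y = T m (T n y))
    (hTd : ∀ m x y, dist (T m x) (T m y) = dist x y) (hf : ∀ m y, f (T m y) = f y + m)
    (hfu : ∀ η > 0, ∃ ε > 0, ∀ x y, dist x y < ε → |f x - f y| < η)
    {n : ℕ} (hn : 1 ≤ n) {a b : ℝ} (hab : a < b) {v : List Y → k} {i j : ℤ}
    (hij : b - a < j - i) (hv : CocL (Slab f (a + i) (b + j)) n v)
    (he : ExL (Slab f a b) n (fun l => v (l.map (T i)) - v (l.map (T j)))) {c d : ℝ}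
    (hc : a + i ≤ c) (hd : d ≤ a + j) (hne : ¬ ExL (Slab f c d) n v) : Out T f n k := by
  have he' : ExL (Slab f (a + i) (b + i)) n (fun l => v l - v (l.map (T (j - i)))) := by
    refine ex_push hT0 hTa hTd hf i ?_
    simpa only [map_map_T hTa, sub_add_cancel] using he
  have e2 : Slab f (a + i) (b + j) = Slab f (a + i) (b + i + ((j - i : ℤ) : ℝ)) := by
    push_cast
    congr 1
    ring
  rw [e2] at hv
  have hs : b + i - (a + i) < ((j - i : ℤ) : ℝ) := by
    push_cast
    linarith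
  obtain ⟨U, h1, h2, h3⟩ := glue hT0 hTa hTd hf hfu hn (by linarith) hs hv he'
  refine ⟨j - i, U, ?_, h1, h2, c, d, fun h => hne ?_⟩
  · have : (0 : ℝ) < ((j - i : ℤ) : ℝ) := by linarith
    exact_mod_cast this
  · have h4 : ExL (Slab f c d) n (fun l => U l - v l) := by
      refine h3.mono (Slab.mono hc ?_)
      push_cast
      linarith
    have := exL_sub h h4
    simpa using this

/-- **Z4**: pigeonhole. -/
theorem z4 (hT0 : ∀ y, T 0 y = y) (hTa : ∀ m n y, T (m + n) y = T m (T n y))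
    (hTd : ∀ m x y, dist (T m x) (T m y) = dist x y) (hf : ∀ m y, f (T m y) = f y + m)
    (hfu : ∀ η > 0, ∃ ε > 0, ∀ x y, dist x y < ε → |f x - f y| < η)
    {n : ℕ} (hn : 1 ≤ n)
    (hfin : ∀ a b : ℝ, ∃ a' b' : ℝ, ∃ W : Set (List Y → k), W.Finite ∧
      ∀ v : List Y → k, CocL (Slab f a' b') n v →
        ∃ w ∈ W, ExL (Slab f a b) n (fun l => v l - w l))
    {a b : ℝ} (hN : ∀ a' b' : ℝ, ∃ v : List Y → k,
      CocL (Slab f a' b') n v ∧ ¬ ExL (Slab f a b) n v) :
    ∃ (s : ℤ) (U : List Y → k), 0 < s ∧ CocL (univ : Set Y) n U ∧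
      (∀ (m : ℤ) (l : List Y), U (l.map (T (s * m))) = U l) ∧
      ∃ a b : ℝ, ¬ ExL (Slab f a b) n U := by
  obtain ⟨b1, hb1, hab1⟩ : ∃ b1, b ≤ b1 ∧ a < b1 :=
    ⟨max b (a + 1), le_max_left _ _, lt_max_of_lt_right (by linarith)⟩
  obtain ⟨a', b', W, hW, hcov⟩ := hfin a b1
  obtain ⟨D, hD⟩ : ∃ D : ℤ, b1 - a < D := ⟨⌊b1 - a⌋ + 1, by
    push_cast; exact Int.lt_floor_add_one _⟩
  have hD0 : (0 : ℝ) < D := by linarith
  set N := hW.toFinset.card with hNdef
  have hN0 : (0 : ℝ) ≤ N := Nat.cast_nonneg _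
  obtain ⟨v, hv, hvn⟩ := hN (min a a' - N * D) (max b1 b' + N * D)
  have hvn' : ¬ ExL (Slab f a b1) n v := fun h => hvn (h.mono (Slab.mono le_rfl hb1))
  have hcv : ∀ i j : ℝ, -(N * D) ≤ i → j ≤ N * D → CocL (Slab f (min a a' + i) (max b1 b' + j)) n v :=
    fun i j hi hj => hv.mono (Slab.mono (by linarith) (by linarith))
  -- the classes
  have hw : ∀ m : ℤ, (-(N * D) : ℝ) ≤ m → (m : ℝ) ≤ N * D →
      ∃ w ∈ W, ExL (Slab f a b1) n (fun l => v (l.map (T m)) - w l) := fun m h1 h2 =>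
    hcov _ (coc_pull hTd hf m ((hcv m m h1 h2).mono
      (Slab.mono (by linarith [min_le_right a a']) (by linarith [le_max_right b1 b']))))
  -- one side
  have hside : ∀ σ : ℤ, (σ = 1 ∨ σ = -1) → ∃ p q : ℕ, p < q ∧ q ≤ N ∧
      ExL (Slab f a b1) n (fun l => v (l.map (T (σ * (p * D)))) - v (l.map (T (σ * (q * D))))) := by
    intro σ hσ
    have hb : ∀ p : ℕ, p ≤ N → (-(N * D) : ℝ) ≤ ((σ * (p * D) : ℤ) : ℝ) ∧
        ((σ * (p * D) : ℤ) : ℝ) ≤ N * D := by
      intro p hp
      have hp' : (p : ℝ) * D ≤ N * D := mul_le_mul_of_nonneg_right (by exact_mod_cast hp) hD0.le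
      have hp0 : (0 : ℝ) ≤ p * D := by positivity
      rcases hσ with rfl | rfl
      · push_cast
        constructor <;> nlinarith
      · push_cast
        constructor <;> nlinarith
    choose! w hwW hwE using fun (m : ℤ) (h : (-(N * D) : ℝ) ≤ m ∧ (m : ℝ) ≤ N * D) =>
      hw m h.1 h.2
    obtain ⟨p, hp, q, hq, hpq, hEq⟩ := Finset.exists_ne_map_eq_of_card_lt_of_maps_to
      (s := Finset.range (N + 1)) (t := hW.toFinset) (f := fun p : ℕ => w (σ * (p * D)))
      (by rw [Finset.card_range]; exact Nat.lt_succ_self _)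
      (fun p hp => by
        have hp : p ∈ Finset.range (N + 1) := by exact_mod_cast hp
        have := hwW _ (hb p (Nat.lt_succ_iff.1 (Finset.mem_range.1 hp)))
        simpa using this)
    have key : ∀ p q : ℕ, p ≤ N → q ≤ N → w (σ * (p * D)) = w (σ * (q * D)) →
        ExL (Slab f a b1) n
          (fun l => v (l.map (T (σ * (p * D)))) - v (l.map (T (σ * (q * D))))) := by
      intro p q hp hq hEq
      have h1 := hwE _ (hb p hp)
      have h2 := hwE _ (hb q hq)
      have := exL_sub h1 h2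
      rw [hEq] at this
      simpa only [sub_sub_sub_cancel_right] using this
    have hp' := Nat.lt_succ_iff.1 (Finset.mem_range.1 hp)
    have hq' := Nat.lt_succ_iff.1 (Finset.mem_range.1 hq)
    rcases lt_or_gt_of_ne hpq with h | h
    · exact ⟨p, q, h, hq', key p q hp' hq' hEq⟩
    · exact ⟨q, p, h, hp', key q p hq' hp' hEq.symm⟩
  obtain ⟨p, q, hpq, hqN, hR⟩ := hside 1 (Or.inl rfl)
  obtain ⟨p', q', hpq', hqN', hL⟩ := hside (-1) (Or.inr rfl)
  have hbd : ∀ p q : ℕ, p < q → q ≤ N → (D : ℝ) ≤ q * D - p * D ∧ (q : ℝ) * D ≤ N * D ∧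
      (0 : ℝ) ≤ p * D ∧ (D : ℝ) ≤ q * D := by
    intro p q h1 h2
    have h1' : (p : ℝ) + 1 ≤ q := by exact_mod_cast h1
    have h2' : (q : ℝ) ≤ N := by exact_mod_cast h2
    have hp0 : (0 : ℝ) ≤ p := Nat.cast_nonneg _
    refine ⟨by nlinarith, by nlinarith, by positivity, by nlinarith⟩
  have hR1 := hbd p q hpq hqN
  have hL1 := hbd p' q' hpq' hqN'
  have hmin := min_le_left a a'
  have hmax := le_max_left b1 b'
  -- right side
  by_cases hr : ExL (Slab f (a + (p * D : ℤ)) (b1 + (p * D : ℤ))) n v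
  swap
  · refine step hT0 hTa hTd hf hfu hn hab1 (i := p * D) (j := q * D) ?_ ?_
      (by simpa only [one_mul] using hR) le_rfl ?_ hr
    · push_cast; linarith [hR1.1]
    · refine (hcv (p * D) (q * D) (by nlinarith [hR1.2.2.1]) hR1.2.1).mono
        (Slab.mono ?_ ?_) <;> push_cast <;> linarith
    · push_cast; linarith [hR1.1]
  have hr2 : ExL (Slab f a b1) n (fun l => v (l.map (T (q * D)))) := by
    have h1 := ex_pull hTd hf (p * D : ℤ) hr
    have h2 := exL_sub h1 (by simpa only [one_mul] using hR)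
    simpa using h2
  -- left side
  by_cases hl : ExL (Slab f (a + (-1 * (q' * D) : ℤ)) (b1 + (-1 * (q' * D) : ℤ))) n v
  swap
  · refine step hT0 hTa hTd hf hfu hn hab1 (i := -1 * (q' * D)) (j := -1 * (p' * D)) ?_ ?_
      ?_ le_rfl ?_ hl
    · push_cast; linarith [hL1.1]
    · refine (hcv (-(q' * D)) (-(p' * D)) (by linarith [hL1.2.1])
        (by nlinarith [hL1.2.2.1])).mono (Slab.mono ?_ ?_) <;> push_cast <;> linarith
    · have := exL_sub (exL_sub hL hL) hL
      simpa using this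
    · push_cast; linarith [hL1.1]
  have hl2 : ExL (Slab f a b1) n (fun l => v (l.map (T (-1 * (q' * D))))) :=
    ex_pull hTd hf _ hl
  refine step hT0 hTa hTd hf hfu hn hab1 (i := -1 * (q' * D)) (j := q * D) ?_ ?_
    (exL_sub hl2 hr2) (c := a) (d := b1) ?_ ?_ hvn'
  · push_cast; linarith [hL1.2.2.2, hR1.2.2.2]
  · refine (hcv (-(q' * D)) (q * D) (by linarith [hL1.2.1]) hR1.2.1).mono
      (Slab.mono ?_ ?_) <;> push_cast <;> linarith
  · push_cast; linarith [hL1.2.2.2]
  · push_cast; linarith [hR1.2.2.2]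

end Vale.Agent.P216.H774B
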